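import Mathlib

/-!
P225: coordinate definitions for a Riemannian metric on an open subset of `ℝ^7`.
An open subset of `ℝ^7` with a smooth metric is a manifold without boundary, so these are the usual
Ricci tensor, Laplace-Beltrami operator and Riemannian distance, written in the global chart.
-/

noncomputable section

namespace Vale.Agent.P225

open scoped ContDiff Topology
open Filter

/-- The model space `ℝ^7`. -/
abbrev Pt := Fin 7 → ℝ

/-- A field of symmetric bilinear forms, by its matrix in the standard coordinates. -/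
abbrev MetricField := Pt → Matrix (Fin 7) (Fin 7) ℝ

/-- Partial derivative in the `i`-th coordinate. -/
def pd (f : Pt → ℝ) (i : Fin 7) (x : Pt) : ℝ := fderiv ℝ f x (Pi.single i 1)

/-- Christoffel symbol `Γ^k_{ij}` of the Levi-Civita connection. -/
def christoffel (g : MetricField) (k i j : Fin 7) (x : Pt) : ℝ :=
  (1 / 2) * ∑ l, (g x)⁻¹ k l *
    (pd (fun y => g y j l) i x + pd (fun y => g y i l) j x - pd (fun y => g y i j) l x)

/-- Ricci tensor `Ric_{ij}`. -/
def ricci (g : MetricField) (i j : Fin 7) (x : Pt) : ℝ :=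
  (∑ k, pd (christoffel g k i j) k x) - (∑ k, pd (christoffel g k i k) j x) +
    ∑ k, ∑ l, (christoffel g k k l x * christoffel g l i j x -
      christoffel g k j l x * christoffel g l i k x)

/-- Laplace-Beltrami operator: the `g`-trace of the Hessian,
`g^{ij} (∂_i ∂_j u - Γ^k_{ij} ∂_k u)`. -/
def laplacian (g : MetricField) (u : Pt → ℝ) (x : Pt) : ℝ :=
  ∑ i, ∑ j, (g x)⁻¹ i j * (pd (pd u j) i x - ∑ k, christoffel g k i j x * pd u k x)

/-- Length of a curve on `[0, 1]`. -/
def curveLength (g : MetricField) (γ : ℝ → Pt) : ℝ :=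
  ∫ t in (0 : ℝ)..1, Real.sqrt (∑ i, ∑ j, g (γ t) i j * deriv γ t i * deriv γ t j)

/-- Riemannian distance inside `U`: infimum of lengths of `C¹` curves in `U` joining two points. -/
def rdist (U : Set Pt) (g : MetricField) (p q : Pt) : ℝ :=
  sInf {L | ∃ γ : ℝ → Pt, ContDiff ℝ 1 γ ∧ γ 0 = p ∧ γ 1 = q ∧
    (∀ t ∈ Set.Icc (0 : ℝ) 1, γ t ∈ U) ∧ L = curveLength g γ}

/-- Completeness of `(U, g)`: every Cauchy sequence for the Riemannian distance converges in `U`. -/
def IsCompleteRiem (U : Set Pt) (g : MetricField) : Prop :=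
  ∀ s : ℕ → Pt, (∀ n, s n ∈ U) →
    (∀ ε > 0, ∃ N, ∀ m ≥ N, ∀ n ≥ N, rdist U g (s m) (s n) < ε) →
      ∃ p ∈ U, Tendsto s atTop (𝓝 p)

/-- `(U, g)` is a connected complete smooth Riemannian manifold with nonnegative Ricci curvature. -/
structure IsRicNonnegComplete (U : Set Pt) (g : MetricField) : Prop where
  isOpen : IsOpen U
  connected : IsConnected U
  smooth : ∀ i j, ContDiffOn ℝ ∞ (fun x => g x i j) U
  posDef : ∀ x ∈ U, (g x).PosDef
  complete : IsCompleteRiem U g
  ricNonneg : ∀ x ∈ U, ∀ v : Pt, 0 ≤ ∑ i, ∑ j, ricci g i j x * v i * v j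

/-- `u` is harmonic on `(U, g)` with `|u| ≤ C (1 + d(o, ·))^k`. -/
structure IsHarmonicGrowth (U : Set Pt) (g : MetricField) (o : Pt) (k : ℕ) (u : Pt → ℝ) :
    Prop where
  smooth : ContDiffOn ℝ ∞ u U
  harmonic : ∀ x ∈ U, laplacian g u x = 0
  growth : ∃ C : ℝ, ∀ x ∈ U, |u x| ≤ C * (1 + rdist U g o x) ^ k

/-- The Euclidean count `h_k(ℝ^7)`. -/
def euclideanCount (k : ℕ) : ℕ := Nat.choose (k + 6) k + Nat.choose (k + 5) (k - 1)

/-- The target: Yau's comparison fails in dimension seven. -/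
def YauFails : Prop :=
  ∃ (U : Set Pt) (g : MetricField) (o : Pt) (k N : ℕ) (u : Fin N → Pt → ℝ),
    o ∈ U ∧ 1 ≤ k ∧ IsRicNonnegComplete U g ∧ (∀ n, IsHarmonicGrowth U g o k (u n)) ∧
      LinearIndependent ℝ (fun n => U.domRestrict (u n)) ∧ euclideanCount k < N

theorem euclideanCount_fourteen : euclideanCount 14 = 65892 := by
  rfl

end Vale.Agent.P225
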